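import Vale.Agent.P011N.Iface2
import Vale.Agent.P011.H900.BrgE2

/-!
The clauses for groups of type `E₆` in the new letters from the old ones, for a property of groups
which is invariant under isomorphisms.
-/

open Module

namespace Vale.Agent.P011N.E0

open Vale.Agent.P011N
open Vale.Agent.P011 Vale.Agent.P011.MPQ Vale.Agent.P011.D4 Vale.Agent.P011.E6 Vale.Agent.P011.E6H
open Vale.Agent.P011.H900

/-- The property is invariant under isomorphisms. -/
def IsoInv (Φ : ∀ (G : Type) [Group G], Prop) : Prop :=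
  ∀ (G H : Type) [Group G] [Group H], (G ≃* H) → Φ H → Φ G

theorem isoInv_simp : IsoInv Simp := by
  intro G H _ _ e h N hN
  rcases h (N.comap e.symm.toMonoidHom) (hN.comap _) with h1 | h1
  · left
    intro x hx
    have h2 : e x ∈ N.comap e.symm.toMonoidHom := by
      change e.symm (e x) ∈ N
      rwa [e.symm_apply_apply]
    rw [Subgroup.mem_center_iff]
    intro y
    apply e.injective
    rw [map_mul, map_mul]
    exact Subgroup.mem_center_iff.1 (h1 h2) _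
  · right
    rw [eq_top_iff]
    intro x _
    have h2 : e x ∈ N.comap e.symm.toMonoidHom := by
      rw [h1]
      exact Subgroup.mem_top _
    have h3 : e.symm (e x) ∈ N := h2
    rwa [e.symm_apply_apply] at h3

theorem isoInv_bigTop : IsoInv BigTop := by
  intro G H _ _ e h N hN
  rw [eq_top_iff]
  intro x _
  have h2 : e x ∈ N.comap e.symm.toMonoidHom := by
    rw [h _ (hN.comap _)]
    exact Subgroup.mem_top _
  have h3 : e.symm (e x) ∈ N := h2
  rwa [e.symm_apply_apply] at h3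

theorem isoInv_hasGood : IsoInv HasGood := by
  rintro G H _ _ e ⟨V, i1, i2, i3, T, hT, ⟨f⟩⟩
  exact ⟨V, i1, i2, i3, T, hT, ⟨e.trans f⟩⟩

/-- The first clause in the old letters. -/
def OldE1 (Φ : ∀ (G : Type) [Group G], Prop) : Prop :=
  ∀ {k K : Type} [Field k] [NumberField k] [Field K] [Algebra k K], finrank k K = 2 →
    ∀ σ : K ≃ₐ[k] K, (∃ x, σ x ≠ x) → ∀ {a b c : kˣ}, Oct.Division (up K a) (up K b) (up K c) →
    ∀ g : Fin 3 → kˣ, (∀ x : AlbL K a b c, E6H.her σ (upG K g) x x = 0 → x = 0) →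
    Φ (GHer σ (upG K g) a b c)

/-- The second clause in the old letters. -/
def OldE2 (Φ : ∀ (G : Type) [Group G], Prop) : Prop :=
  ∀ {k L : Type} [Field k] [NumberField k] [Field L] [Algebra k L], finrank k L = 3 →
    ∀ ρ : L ≃ₐ[k] L, (∃ x, ρ x ≠ x) → ∀ lam : kˣ, (∀ x : L, Algebra.norm k x ≠ lam) →
    ∀ {a b c : kˣ}, Oct.Division a b c → Φ (GPh ρ (up L lam) a b c)

/-- The third clause in the old letters. -/
def OldE3 (Φ : ∀ (G : Type) [Group G], Prop) : Prop :=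
  ∀ {k E : Type} [Field k] [NumberField k] [Field E] [NumberField E] [Algebra k E],
    ∀ (ρ σ : E ≃ₐ[k] E) {kap : kˣ}, IsSextic ρ σ kap → ∀ {a b c : kˣ}, Oct.Division a b c →
    ∀ (lam : Eˣ) (g : Fin 3 → Eˣ), IsForm ρ σ lam g →
    Φ (GHer σ g a b c ⊓ GPh ρ lam a b c : Subgroup (Equiv.Perm (AlbL E a b c)))

/-- The third clause in the old letters, for anisotropic groups. -/
def OldE3A (Φ : ∀ (G : Type) [Group G], Prop) : Prop :=
  ∀ {k E : Type} [Field k] [NumberField k] [Field E] [NumberField E] [Algebra k E],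
    ∀ (ρ σ : E ≃ₐ[k] E) {kap : kˣ}, IsSextic ρ σ kap → ∀ {a b c : kˣ}, Oct.Division a b c →
    ∀ (lam : Eˣ) (g : Fin 3 → Eˣ), IsForm ρ σ lam g →
    ((∀ x : AlbL E a b c, E6H.her σ g x x = 0 → x = 0) ∨
      Oct.Division (up E a) (up E b) (up E c)) →
    Φ (GHer σ g a b c ⊓ GPh ρ lam a b c : Subgroup (Equiv.Perm (AlbL E a b c)))

variable {Φ : ∀ (G : Type) [Group G], Prop}

/-- Outer groups with trivial Tits class. -/
theorem clE1_of (hΦ : IsoInv Φ) (H : OldE1 Φ) : ClE1 Φ := by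
  intro F _ _ s a b c g hs hd hg ha
  have hA : IsA s := hs.isA two_ne_zero
  obtain ⟨k, _, _, _, hfin, hgal, hfix, haut, hcl⟩ := exists_base [s] (by simpa using hA)
  obtain ⟨ha0, hb0, hc0⟩ := hd.ne (by simp)
  have hg0 := g_ne hA ha
  obtain ⟨a, rfl⟩ := unit_of hfix (by simpa using (hd.1 s (by simp)).1) ha0
  obtain ⟨b, rfl⟩ := unit_of hfix (by simpa using (hd.1 s (by simp)).2.1) hb0
  obtain ⟨c, rfl⟩ := unit_of hfix (by simpa using (hd.1 s (by simp)).2.2) hc0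
  have hg1 : ∀ i, ∃ u : kˣ, ((up F u : Fˣ) : F) = g i := fun i =>
    unit_of hfix (by simpa using hg i) (hg0 i)
  choose g' hg' using hg1
  obtain rfl : (fun i => ((upG F g' i : Fˣ) : F)) = g := funext hg'
  obtain ⟨σ, rfl⟩ := haut s (by simp)
  have h2 : finrank k F = 2 := rank2 hcl hs.exists_ne hs.two
  have h3 := H h2 σ hs.exists_ne (div_of_nil hd) g' (fun x hx => by
    obtain ⟨x, rfl⟩ := (aeL a b c).surjective x
    rw [← her_eq] at hx
    rw [ha x hx]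
    rfl)
  exact hΦ _ _ (gEquiv (aeL a b c) _ _ (her_iff σ (upG F g'))) h3

/-- Inner groups. -/
theorem clE2_of (hΦ : IsoInv Φ) (H : OldE2 Φ) : ClE2 Φ := by
  intro F _ _ r a b c e hr hd he
  have hA : IsA r := hr.isA three_ne_zero
  obtain ⟨k, _, _, _, hfin, hgal, hfix, haut, hcl⟩ := exists_base [r] (by simpa using hA)
  obtain ⟨ha0, hb0, hc0⟩ := hd.ne (by simpa using hA)
  have he0 : e ≠ 0 := fun h => he.2 0 (by rw [h, zero_mul, zero_mul])
  obtain ⟨a, rfl⟩ := unit_of hfix (by simpa using (hd.1 r (by simp)).1) ha0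
  obtain ⟨b, rfl⟩ := unit_of hfix (by simpa using (hd.1 r (by simp)).2.1) hb0
  obtain ⟨c, rfl⟩ := unit_of hfix (by simpa using (hd.1 r (by simp)).2.2) hc0
  obtain ⟨e, rfl⟩ := unit_of hfix (by simpa using he.1) he0
  obtain ⟨ρ, rfl⟩ := haut r (by simp)
  have h3 : finrank k F = 3 := rank3 hcl hr.exists_ne hr.three
  have hn : ∀ x : F, Algebra.norm k x ≠ e := by
    intro x hx
    apply he.2 x
    have h4 := congrArg (algebraMap k F) hx
    rw [Vale.Agent.P011.E6I.norm_rho h3 (ne_one hr.exists_ne)] at h4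
    exact h4
  have h4 := H h3 ρ hr.exists_ne e hn (div_of haut hd)
  exact hΦ _ _ (gEquiv (aeL a b c) _ _ (ph_iff ρ (up F e))) h4

/-- Outer groups with nontrivial Tits class. -/
theorem clE3_of (hΦ : IsoInv Φ) (H : OldE3 Φ) : ClE3 Φ := by
  intro F _ _ r s a b c e t g hr hs hc hd he hw
  have hA : IsA r := hr.isA three_ne_zero
  have hB : IsA s := hs.isA two_ne_zero
  obtain ⟨k, _, _, _, hfin, hgal, hfix, haut, hcl⟩ := exists_base [r, s] (by simpa using ⟨hA, hB⟩)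
  obtain ⟨ha0, hb0, hc0⟩ := hd.ne (by simpa using ⟨hA, hB⟩)
  have he0 : e ≠ 0 := fun h => he.2 0 (by rw [h, zero_mul, zero_mul])
  have hr' := hd.1 r (by simp)
  have hs' := hd.1 s (by simp)
  obtain ⟨a, rfl⟩ := unit_of hfix (by simpa using ⟨hr'.1, hs'.1⟩) ha0
  obtain ⟨b, rfl⟩ := unit_of hfix (by simpa using ⟨hr'.2.1, hs'.2.1⟩) hb0
  obtain ⟨c, rfl⟩ := unit_of hfix (by simpa using ⟨hr'.2.2, hs'.2.2⟩) hc0
  obtain ⟨e, rfl⟩ : ∃ u : Fˣ, (u : F) = e := ⟨Units.mk0 e he0, rfl⟩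
  obtain ⟨ρ, rfl⟩ := haut r (by simp)
  obtain ⟨σ, rfl⟩ := haut s (by simp)
  obtain ⟨w1, w2, w3, w4, w5, w6⟩ := hw
  have hg0 : ∀ i, g i ≠ 0 := by
    have h2 : g 2 ≠ 0 := by
      intro h
      rw [h, map_zero, mul_zero] at w6
      exact w2 w6
    have ht : t ≠ 0 := by
      rintro rfl
      rw [zero_mul] at w5
      exact h2 w5
    have h1 : g 1 ≠ 0 := by
      rw [w4]
      exact mul_ne_zero ht ((map_ne_zero ρ).2 w2)
    intro i
    fin_cases i
    · exact w2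
    · exact h1
    · exact h2
  obtain ⟨g, rfl⟩ : ∃ g' : Fin 3 → Fˣ, (fun i => (g' i : F)) = g :=
    ⟨fun i => Units.mk0 (g i) (hg0 i), rfl⟩
  have h6 : finrank k F = 6 := rank6 hcl hr.exists_ne hr.three hs.exists_ne hs.two hc
  obtain ⟨kap, hk⟩ : ∃ kap : kˣ, ∃ x : F, x ^ 2 = algebraMap k F kap ∧ ρ x = x ∧ σ x = -x := by
    obtain ⟨y, hy⟩ := hs.exists_ne
    have hu : y - σ y ≠ 0 := fun h => hy (sub_eq_zero.1 h).symm
    have hσu : σ (y - σ y) = -(y - σ y) := by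
      rw [map_sub, hs.two]
      ring
    have hx0 : (y - σ y) * ρ (y - σ y) * ρ (ρ (y - σ y)) ≠ 0 :=
      mul_ne_zero (mul_ne_zero hu ((map_ne_zero ρ).2 hu))
        ((map_ne_zero ρ).2 ((map_ne_zero ρ).2 hu))
    have hρx : ρ ((y - σ y) * ρ (y - σ y) * ρ (ρ (y - σ y))) =
        (y - σ y) * ρ (y - σ y) * ρ (ρ (y - σ y)) := by
      rw [map_mul, map_mul, hr.three]
      ring
    have hσx : σ ((y - σ y) * ρ (y - σ y) * ρ (ρ (y - σ y))) =
        -((y - σ y) * ρ (y - σ y) * ρ (ρ (y - σ y))) := by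
      rw [map_mul, map_mul, ← hc, ← hc, ← hc, hσu, map_neg, map_neg]
      ring
    generalize (y - σ y) * ρ (y - σ y) * ρ (ρ (y - σ y)) = x at hx0 hρx hσx
    obtain ⟨u, hu⟩ := unit_of hfix (x := x ^ 2) (by
      simp only [List.mem_cons, List.not_mem_nil, or_false, forall_eq_or_imp, forall_eq]
      exact ⟨by rw [map_pow, hρx], by rw [map_pow, hσx, neg_sq]⟩) (pow_ne_zero 2 hx0)
    exact ⟨u, x, hu.symm, hρx, hσx⟩
  have hS : IsSextic ρ σ kap := ⟨h6, hr.exists_ne, hr.three, hs.two, hc, hk⟩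
  have hF : IsForm ρ σ e g := ⟨he.1, he.2, w1, ⟨t, w3, w4, w5, w6⟩⟩
  have h7 := H ρ σ hS (div_of haut hd) e g hF
  exact hΦ _ _ (gEquiv (aeL a b c) _ _ (her_ph_iff σ ρ g e)) h7

/-- Anisotropic outer groups with nontrivial Tits class. -/
theorem clE3A_of (hΦ : IsoInv Φ) (H : OldE3A Φ) : ClE3A Φ := by
  intro F _ _ r s a b c e t g hr hs hc hd he hw han
  have hA : IsA r := hr.isA three_ne_zero
  have hB : IsA s := hs.isA two_ne_zero
  obtain ⟨k, _, _, _, hfin, hgal, hfix, haut, hcl⟩ := exists_base [r, s] (by simpa using ⟨hA, hB⟩)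
  obtain ⟨ha0, hb0, hc0⟩ := hd.ne (by simpa using ⟨hA, hB⟩)
  have he0 : e ≠ 0 := fun h => he.2 0 (by rw [h, zero_mul, zero_mul])
  have hr' := hd.1 r (by simp)
  have hs' := hd.1 s (by simp)
  obtain ⟨a, rfl⟩ := unit_of hfix (by simpa using ⟨hr'.1, hs'.1⟩) ha0
  obtain ⟨b, rfl⟩ := unit_of hfix (by simpa using ⟨hr'.2.1, hs'.2.1⟩) hb0
  obtain ⟨c, rfl⟩ := unit_of hfix (by simpa using ⟨hr'.2.2, hs'.2.2⟩) hc0
  obtain ⟨e, rfl⟩ : ∃ u : Fˣ, (u : F) = e := ⟨Units.mk0 e he0, rfl⟩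
  obtain ⟨ρ, rfl⟩ := haut r (by simp)
  obtain ⟨σ, rfl⟩ := haut s (by simp)
  obtain ⟨w1, w2, w3, w4, w5, w6⟩ := hw
  have hg0 : ∀ i, g i ≠ 0 := by
    have h2 : g 2 ≠ 0 := by
      intro h
      rw [h, map_zero, mul_zero] at w6
      exact w2 w6
    have ht : t ≠ 0 := by
      rintro rfl
      rw [zero_mul] at w5
      exact h2 w5
    have h1 : g 1 ≠ 0 := by
      rw [w4]
      exact mul_ne_zero ht ((map_ne_zero ρ).2 w2)
    intro i
    fin_cases i
    · exact w2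
    · exact h1
    · exact h2
  obtain ⟨g, rfl⟩ : ∃ g' : Fin 3 → Fˣ, (fun i => (g' i : F)) = g :=
    ⟨fun i => Units.mk0 (g i) (hg0 i), rfl⟩
  have h6 : finrank k F = 6 := rank6 hcl hr.exists_ne hr.three hs.exists_ne hs.two hc
  obtain ⟨kap, hk⟩ : ∃ kap : kˣ, ∃ x : F, x ^ 2 = algebraMap k F kap ∧ ρ x = x ∧ σ x = -x := by
    obtain ⟨y, hy⟩ := hs.exists_ne
    have hu : y - σ y ≠ 0 := fun h => hy (sub_eq_zero.1 h).symm
    have hσu : σ (y - σ y) = -(y - σ y) := by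
      rw [map_sub, hs.two]
      ring
    have hx0 : (y - σ y) * ρ (y - σ y) * ρ (ρ (y - σ y)) ≠ 0 :=
      mul_ne_zero (mul_ne_zero hu ((map_ne_zero ρ).2 hu))
        ((map_ne_zero ρ).2 ((map_ne_zero ρ).2 hu))
    have hρx : ρ ((y - σ y) * ρ (y - σ y) * ρ (ρ (y - σ y))) =
        (y - σ y) * ρ (y - σ y) * ρ (ρ (y - σ y)) := by
      rw [map_mul, map_mul, hr.three]
      ring
    have hσx : σ ((y - σ y) * ρ (y - σ y) * ρ (ρ (y - σ y))) =
        -((y - σ y) * ρ (y - σ y) * ρ (ρ (y - σ y))) := by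
      rw [map_mul, map_mul, ← hc, ← hc, ← hc, hσu, map_neg, map_neg]
      ring
    generalize (y - σ y) * ρ (y - σ y) * ρ (ρ (y - σ y)) = x at hx0 hρx hσx
    obtain ⟨u, hu⟩ := unit_of hfix (x := x ^ 2) (by
      simp only [List.mem_cons, List.not_mem_nil, or_false, forall_eq_or_imp, forall_eq]
      exact ⟨by rw [map_pow, hρx], by rw [map_pow, hσx, neg_sq]⟩) (pow_ne_zero 2 hx0)
    exact ⟨u, x, hu.symm, hρx, hσx⟩
  have hS : IsSextic ρ σ kap := ⟨h6, hr.exists_ne, hr.three, hs.two, hc, hk⟩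
  have hF : IsForm ρ σ e g := ⟨he.1, he.2, w1, ⟨t, w3, w4, w5, w6⟩⟩
  have h7 := H ρ σ hS (div_of haut hd) e g hF (han.imp (fun ha x hx => by
    obtain ⟨x, rfl⟩ := (aeL a b c).surjective x
    rw [← her_eq] at hx
    rw [ha x hx]
    rfl) div_of_nil)
  exact hΦ _ _ (gEquiv (aeL a b c) _ _ (her_ph_iff σ ρ g e)) h7

end Vale.Agent.P011N.E0
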